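import Mathlib

/-! Primitive recursive arithmetic on `ℚ` for Mathlib's `Primcodable ℚ` instance (which comes from
`Denumerable ℚ`). -/

set_option autoImplicit false
set_option linter.unusedVariables false

namespace Crest.Agent.Lib.Comp

open Primrec

/-- The raw code of a rational number. -/
def raw (q : ℚ) : ℕ := @Encodable.encode ℚ Rat.instEncodable q

/-- The code of an integer. -/
def zc (z : ℤ) : ℕ := Equiv.intEquivNat z

theorem raw_eq (q : ℚ) : raw q = Nat.pair (zc q.num) q.den := rfl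

theorem zc_ofNat (n : ℕ) : zc (n : ℤ) = 2 * n := rfl

theorem zc_negSucc (n : ℕ) : zc (Int.negSucc n) = 2 * n + 1 := rfl

theorem zc_natAbs (z : ℤ) : (zc z + 1) / 2 = z.natAbs := by
  cases z with
  | ofNat n => rw [Int.ofNat_eq_natCast, zc_ofNat]; simp only [Int.natAbs_natCast]; omega
  | negSucc n => rw [zc_negSucc]; simp only [Int.natAbs_negSucc]; omega

theorem zc_toNat (z : ℤ) : z.toNat = if zc z % 2 = 0 then zc z / 2 else 0 := by
  cases z with
  | ofNat n =>
    rw [Int.ofNat_eq_natCast, zc_ofNat]; simp only [Int.toNat_natCast]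
    rw [if_pos (by omega)]; omega
  | negSucc n => rw [zc_negSucc, if_neg (by omega)]; rfl

theorem zc_eq (z : ℤ) : zc z = 2 * z.toNat + (2 * (-z).toNat - 1) := by
  cases z with
  | ofNat n => rw [Int.ofNat_eq_natCast, zc_ofNat]; omega
  | negSucc n => rw [zc_negSucc]; omega

/-- Membership in the range of the raw code. -/
def IsRaw (m : ℕ) : Prop := 0 < m.unpair.2 ∧ Nat.gcd ((m.unpair.1 + 1) / 2) m.unpair.2 = 1

instance : DecidablePred IsRaw := fun m => by unfold IsRaw; infer_instance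

theorem isRaw_iff (m : ℕ) : IsRaw m ↔ m ∈ Set.range raw := by
  constructor
  · rintro ⟨h1, h2⟩
    obtain ⟨z, hz⟩ : ∃ z, zc z = m.unpair.1 := Equiv.intEquivNat.surjective _
    refine ⟨⟨z, m.unpair.2, h1.ne', ?_⟩, ?_⟩
    · rw [← zc_natAbs, hz]; exact h2
    · rw [raw_eq]; simp [hz]
  · rintro ⟨q, rfl⟩
    rw [raw_eq]
    simp only [IsRaw, Nat.unpair_pair, zc_natAbs]
    exact ⟨q.den_pos, q.reduced⟩

theorem encode_eq (q : ℚ) :
    @Encodable.encode ℚ Primcodable.toEncodable q = Nat.count IsRaw (raw q) := by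
  have h : @Encodable.encode ℚ Primcodable.toEncodable q =
      (List.range (raw q)).countP
        (fun m => @decide (m ∈ Set.range raw) (Encodable.decidableRangeEncode ℚ m)) := rfl
  rw [h, Nat.count]
  refine List.countP_congr fun m _ => ?_
  exact (@decide_eq_true_iff (m ∈ Set.range raw) (Encodable.decidableRangeEncode ℚ m)).trans
    ((isRaw_iff m).symm.trans decide_eq_true_iff.symm)

theorem primrec_gcd : Primrec₂ Nat.gcd := by
  have h : Primrec fun p : ℕ × ℕ =>
      (p.1 + p.2).findGreatest (fun k => p.1 % k = 0 ∧ p.2 % k = 0) :=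
    nat_findGreatest (p := fun (p : ℕ × ℕ) k => p.1 % k = 0 ∧ p.2 % k = 0) nat_add
      (PrimrecPred.and (Primrec.eq.comp (nat_mod.comp (fst.comp fst) snd) (const 0))
        (Primrec.eq.comp (nat_mod.comp (snd.comp fst) snd) (const 0)))
  refine h.of_eq ?_
  rintro ⟨a, b⟩
  dsimp only
  rcases Nat.eq_zero_or_pos (a + b) with h0 | h0
  · obtain ⟨rfl, rfl⟩ : a = 0 ∧ b = 0 := by omega
    simp
  have hg : 0 < Nat.gcd a b := Nat.gcd_pos_iff.2 (by omega)
  rw [Nat.findGreatest_eq_iff]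
  refine ⟨Nat.le_of_dvd h0 (dvd_add (Nat.gcd_dvd_left a b) (Nat.gcd_dvd_right a b)), fun _ =>
    ⟨Nat.mod_eq_zero_of_dvd (Nat.gcd_dvd_left a b), Nat.mod_eq_zero_of_dvd (Nat.gcd_dvd_right a b)⟩,
    fun k hk _ hh => ?_⟩
  have := Nat.le_of_dvd hg
    (Nat.dvd_gcd (Nat.dvd_of_mod_eq_zero hh.1) (Nat.dvd_of_mod_eq_zero hh.2))
  omega

theorem primrec_isRaw : PrimrecPred IsRaw :=
  PrimrecPred.and (nat_lt.comp (const 0) (snd.comp unpair))
    (Primrec.eq.comp (primrec_gcd.comp
      (nat_div.comp (succ.comp (fst.comp unpair)) (const 2)) (snd.comp unpair)) (const 1))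

theorem primrec_count {p : ℕ → Prop} [DecidablePred p] (hp : PrimrecPred p) :
    Primrec (Nat.count p) := by
  have h : Primrec₂ fun (n ih : ℕ) => if p n then ih + 1 else ih :=
    Primrec.ite (hp.comp fst) (succ.comp snd) snd
  refine (nat_rec₁ 0 h).of_eq fun n => ?_
  induction n with
  | zero => simp
  | succ n ih => rw [Nat.count_succ, ← ih]; split_ifs with h <;> simp [h]

theorem le_count_pair (n : ℕ) : n ≤ Nat.count IsRaw (Nat.pair n 1) := by
  induction n with
  | zero => exact Nat.zero_le _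
  | succ n ih =>
    have h1 : Nat.pair n 1 + 1 ≤ Nat.pair (n + 1) 1 := Nat.pair_lt_pair_left 1 (Nat.lt_succ_self n)
    have h2 := Nat.count_monotone IsRaw h1
    have h3 : IsRaw (Nat.pair n 1) := by simp [IsRaw]
    rw [Nat.count_succ, if_pos h3] at h2
    omega

theorem primrec_raw : Primrec raw := by
  refine of_graph ⟨fun q => Nat.pair (@Encodable.encode ℚ Primcodable.toEncodable q) 1,
    Primrec₂.natPair.comp Primrec.encode (const 1), fun q => ?_⟩ ?_
  · change raw q ≤ _
    by_contra hc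
    push Not at hc
    have h1 := Nat.count_monotone IsRaw (Nat.succ_le_of_lt hc)
    have h3 : IsRaw (Nat.pair (@Encodable.encode ℚ Primcodable.toEncodable q) 1) := by simp [IsRaw]
    rw [Nat.count_succ, if_pos h3, ← encode_eq] at h1
    have := le_count_pair (@Encodable.encode ℚ Primcodable.toEncodable q)
    omega
  · have : PrimrecRel fun (q : ℚ) (m : ℕ) =>
        IsRaw m ∧ Nat.count IsRaw m = @Encodable.encode ℚ Primcodable.toEncodable q :=
      PrimrecPred.and (primrec_isRaw.comp snd)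
        (Primrec.eq.comp ((primrec_count primrec_isRaw).comp snd) (Primrec.encode.comp fst))
    refine this.of_eq fun q m => ?_
    rw [encode_eq]
    have hq : IsRaw (raw q) := (isRaw_iff _).2 ⟨q, rfl⟩
    constructor
    · rintro ⟨h1, h2⟩
      exact (Nat.count_injective h1 hq h2).symm
    · rintro rfl; exact ⟨hq, rfl⟩

theorem primrec_den : Primrec Rat.den :=
  (snd.comp (unpair.comp primrec_raw)).of_eq fun q => by simp [raw_eq]

theorem primrec_zc_num : Primrec fun q : ℚ => zc q.num :=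
  (fst.comp (unpair.comp primrec_raw)).of_eq fun q => by simp [raw_eq]

theorem primrec_natAbs_num : Primrec fun q : ℚ => q.num.natAbs :=
  (nat_div.comp (succ.comp primrec_zc_num) (const 2)).of_eq fun q => zc_natAbs _

/-- Positive part of the numerator. -/
def pn (q : ℚ) : ℕ := q.num.toNat
/-- Negative part of the numerator. -/
def nn (q : ℚ) : ℕ := (-q.num).toNat

theorem primrec_pn : Primrec pn :=
  (Primrec.ite (Primrec.eq.comp (nat_mod.comp primrec_zc_num (const 2)) (const 0))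
    (nat_div.comp primrec_zc_num (const 2)) (const 0)).of_eq fun q => (zc_toNat _).symm

theorem primrec_nn : Primrec nn :=
  (nat_sub.comp primrec_natAbs_num primrec_pn).of_eq fun q => by unfold pn nn; omega

theorem eq_pn_nn (q : ℚ) : q = ((pn q : ℚ) - nn q) / q.den := by
  have h : ((pn q : ℤ) - nn q : ℤ) = q.num := by unfold pn nn; omega
  have h2 : ((pn q : ℚ) - nn q) = q.num := by exact_mod_cast h
  rw [h2, Rat.num_div_den]

/-- `(a - b) / d`. -/
def mk3 (a b d : ℕ) : ℚ := ((a : ℚ) - b) / d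

theorem primrec_mk3 : Primrec fun p : ℕ × ℕ × ℕ => mk3 p.1 p.2.1 p.2.2 := by
  rw [← encode_iff]
  have ha : Primrec fun p : ℕ × ℕ × ℕ => p.1 - p.2.1 := nat_sub.comp fst (fst.comp snd)
  have hb : Primrec fun p : ℕ × ℕ × ℕ => p.2.1 - p.1 := nat_sub.comp (fst.comp snd) fst
  have hd : Primrec fun p : ℕ × ℕ × ℕ => p.2.2 := snd.comp snd
  have hg : Primrec fun p : ℕ × ℕ × ℕ => Nat.gcd ((p.1 - p.2.1) + (p.2.1 - p.1)) p.2.2 :=
    primrec_gcd.comp (nat_add.comp ha hb) hd
  have h := Primrec.ite (Primrec.eq.comp hd (const 0))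
    (const (@Encodable.encode ℚ Primcodable.toEncodable 0))
    ((primrec_count primrec_isRaw).comp (Primrec₂.natPair.comp
      (nat_add.comp (nat_double.comp (nat_div.comp ha hg))
        (nat_sub.comp (nat_double.comp (nat_div.comp hb hg)) (const 1))) (nat_div.comp hd hg)))
  refine h.of_eq ?_
  rintro ⟨a, b, d⟩
  dsimp only
  split_ifs with hd0
  · simp [mk3, hd0]
  rw [encode_eq, raw_eq, zc_eq]
  have e : mk3 a b d = mkRat ((a : ℤ) - b) d := by
    rw [Rat.mkRat_eq_div]; simp [mk3]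
  have e1 : ((a : ℤ) - b).natAbs = a - b + (b - a) := by omega
  rw [e, Rat.num_mkRat, Rat.den_mkRat, if_neg hd0, if_neg hd0, e1, Nat.gcd_comm d]
  set g := Nat.gcd (a - b + (b - a)) d with hgdef
  have hdvd : g ∣ a - b + (b - a) := Nat.gcd_dvd_left _ _
  rcases le_total a b with hab | hab
  · obtain ⟨c, rfl⟩ := Nat.exists_eq_add_of_le hab
    have h1 : a - (a + c) = 0 := by omega
    have h2 : a + c - a = c := by omega
    rw [h1, h2, zero_add] at hdvd
    have h3 : ((a : ℤ) - (a + c : ℕ)) / (g : ℤ) = -((c / g : ℕ) : ℤ) := by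
      have : ((a : ℤ) - (a + c : ℕ)) = -(c : ℤ) := by push_cast; ring
      rw [this, Int.neg_ediv_of_dvd (Int.natCast_dvd_natCast.2 hdvd)]
      simp
    rw [h3, h1, h2, Nat.zero_div]
    generalize c / g = u
    simp
  · obtain ⟨c, rfl⟩ := Nat.exists_eq_add_of_le hab
    have h1 : b - (b + c) = 0 := by omega
    have h2 : b + c - b = c := by omega
    have h3 : (((b + c : ℕ) : ℤ) - b) / (g : ℤ) = ((c / g : ℕ) : ℤ) := by
      have : (((b + c : ℕ) : ℤ) - b) = (c : ℤ) := by push_cast; ring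
      rw [this]; simp
    rw [h3, h1, h2, Nat.zero_div]
    generalize c / g = u
    simp

variable {α : Type*} [Primcodable α]

theorem primrec_mk3' {a b d : α → ℕ} (ha : Primrec a) (hb : Primrec b) (hd : Primrec d) :
    Primrec fun x => mk3 (a x) (b x) (d x) :=
  primrec_mk3.comp (ha.pair (hb.pair hd))

theorem rat_add : Primrec₂ ((· + ·) : ℚ → ℚ → ℚ) := by
  have p1 : Primrec fun p : ℚ × ℚ => pn p.1 := primrec_pn.comp fst
  have p2 : Primrec fun p : ℚ × ℚ => pn p.2 := primrec_pn.comp snd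
  have n1 : Primrec fun p : ℚ × ℚ => nn p.1 := primrec_nn.comp fst
  have n2 : Primrec fun p : ℚ × ℚ => nn p.2 := primrec_nn.comp snd
  have d1 : Primrec fun p : ℚ × ℚ => p.1.den := primrec_den.comp fst
  have d2 : Primrec fun p : ℚ × ℚ => p.2.den := primrec_den.comp snd
  refine (primrec_mk3' (nat_add.comp (nat_mul.comp p1 d2) (nat_mul.comp p2 d1))
    (nat_add.comp (nat_mul.comp n1 d2) (nat_mul.comp n2 d1)) (nat_mul.comp d1 d2)).of_eq ?_
  rintro ⟨q, r⟩
  dsimp only
  conv_rhs => rw [eq_pn_nn q, eq_pn_nn r]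
  have := q.den_nz
  have := r.den_nz
  simp only [mk3]; push_cast; field_simp; ring

theorem rat_mul : Primrec₂ ((· * ·) : ℚ → ℚ → ℚ) := by
  have p1 : Primrec fun p : ℚ × ℚ => pn p.1 := primrec_pn.comp fst
  have p2 : Primrec fun p : ℚ × ℚ => pn p.2 := primrec_pn.comp snd
  have n1 : Primrec fun p : ℚ × ℚ => nn p.1 := primrec_nn.comp fst
  have n2 : Primrec fun p : ℚ × ℚ => nn p.2 := primrec_nn.comp snd
  have d1 : Primrec fun p : ℚ × ℚ => p.1.den := primrec_den.comp fst
  have d2 : Primrec fun p : ℚ × ℚ => p.2.den := primrec_den.comp snd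
  refine (primrec_mk3' (nat_add.comp (nat_mul.comp p1 p2) (nat_mul.comp n1 n2))
    (nat_add.comp (nat_mul.comp p1 n2) (nat_mul.comp n1 p2)) (nat_mul.comp d1 d2)).of_eq ?_
  rintro ⟨q, r⟩
  dsimp only
  conv_rhs => rw [eq_pn_nn q, eq_pn_nn r]
  have := q.den_nz
  have := r.den_nz
  simp only [mk3]; push_cast; field_simp; ring

theorem rat_neg : Primrec (Neg.neg : ℚ → ℚ) :=
  (rat_mul.comp (const (-1)) Primrec.id).of_eq fun q => by simp

theorem rat_sub : Primrec₂ ((· - ·) : ℚ → ℚ → ℚ) :=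
  (rat_add.comp fst (rat_neg.comp snd)).of_eq fun q => by simp [sub_eq_add_neg]

theorem rat_natCast : Primrec (Nat.cast : ℕ → ℚ) :=
  (primrec_mk3' Primrec.id (const 0) (const 1)).of_eq fun q => by simp [mk3]

theorem rat_inv_natCast : Primrec fun n : ℕ => ((n : ℚ))⁻¹ :=
  (primrec_mk3' (const 1) (const 0) Primrec.id).of_eq fun q => by simp [mk3]

theorem rat_nonneg : PrimrecPred fun q : ℚ => 0 ≤ q :=
  (Primrec.eq.comp primrec_nn (const 0)).of_eq fun q => by
    unfold nn; rw [← Rat.num_nonneg]; omega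

theorem rat_le : PrimrecRel ((· ≤ ·) : ℚ → ℚ → Prop) :=
  (rat_nonneg.comp (rat_sub.comp snd fst)).of_eq fun q => by simp

theorem rat_lt : PrimrecRel ((· < ·) : ℚ → ℚ → Prop) :=
  (rat_le.comp snd fst).not.of_eq fun q => by simp

theorem rat_max : Primrec₂ (max : ℚ → ℚ → ℚ) :=
  (Primrec.ite rat_le snd fst).of_eq fun q => (max_def _ _).symm

theorem rat_min : Primrec₂ (min : ℚ → ℚ → ℚ) :=
  (Primrec.ite rat_le fst snd).of_eq fun q => (min_def _ _).symm

theorem rat_abs : Primrec (abs : ℚ → ℚ) :=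
  (rat_max.comp Primrec.id rat_neg).of_eq fun q => (abs_eq_max_neg).symm

theorem rat_pow : Primrec₂ ((· ^ ·) : ℚ → ℕ → ℚ) := by
  have h : Primrec₂ fun (q : ℚ) (p : ℕ × ℚ) => p.2 * q := rat_mul.comp (snd.comp snd) fst
  refine (nat_rec (const 1) h).of_eq fun q n => ?_
  induction n with
  | zero => simp
  | succ n ih => rw [pow_succ, ← ih]

theorem rat_inv : Primrec (Inv.inv : ℚ → ℚ) := by
  have h := Primrec.ite rat_nonneg (primrec_mk3' primrec_den (const 0) primrec_pn)
    (primrec_mk3' (const 0) primrec_den primrec_nn)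
  refine h.of_eq fun q => ?_
  conv_rhs => rw [eq_pn_nn q]
  split_ifs with hq
  · have : nn q = 0 := by unfold nn; rw [← Rat.num_nonneg] at hq; omega
    simp [mk3, this]
  · have : pn q = 0 := by unfold pn; rw [← Rat.num_nonneg] at hq; omega
    simp [mk3, this, neg_div]

theorem rat_div : Primrec₂ ((· / ·) : ℚ → ℚ → ℚ) :=
  (rat_mul.comp fst (rat_inv.comp snd)).of_eq fun q => by simp [div_eq_mul_inv]

theorem nat_pow' : Primrec₂ ((· ^ ·) : ℕ → ℕ → ℕ) := Primrec₂.unpaired'.1 Nat.Primrec.pow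

theorem rat_list_sum : Primrec (List.sum : List ℚ → ℚ) := by
  have h : Primrec₂ fun (_ : List ℚ) (p : ℚ × ℚ) => p.1 + p.2 :=
    rat_add.comp (fst.comp snd) (snd.comp snd)
  exact (list_foldr Primrec.id (const 0) h).of_eq fun l => rfl

theorem abs_le_natAbs_num (q : ℚ) : |(q : ℝ)| ≤ (q.num.natAbs : ℝ) := by
  rw [Rat.cast_def, abs_div, Nat.cast_natAbs, Int.cast_abs, Nat.abs_cast]
  exact div_le_self (abs_nonneg _) (by exact_mod_cast q.den_pos)

end Crest.Agent.Lib.Comp
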