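import Mathlib
import Crest.Agent.Lib.Comp.Rat

/-! Families of reals with primitive recursive rational approximations. -/

set_option autoImplicit false
set_option linter.unusedVariables false

namespace Crest.Agent.Lib.Comp

open Primrec

variable {α β : Type*} [Primcodable α] [Primcodable β]

/-- `u` has primitive recursive rational approximations. -/
def Approx (u : α → ℝ) : Prop :=
  ∃ E : α × ℕ → ℚ, Primrec E ∧ ∀ a n, |u a - (E (a, n) : ℝ)| ≤ 1 / ((n : ℝ) + 1)

theorem Approx.of_eq {u v : α → ℝ} (h : Approx u) (e : ∀ a, u a = v a) : Approx v :=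
  (funext e : u = v) ▸ h

theorem Approx.rat {f : α → ℚ} (hf : Primrec f) : Approx fun a => (f a : ℝ) :=
  ⟨fun p => f p.1, hf.comp fst, fun a n => by simp only [sub_self, abs_zero]; positivity⟩

theorem Approx.nat {f : α → ℕ} (hf : Primrec f) : Approx fun a => (f a : ℝ) :=
  (Approx.rat (rat_natCast.comp hf)).of_eq fun a => by simp

theorem Approx.comp {u : β → ℝ} (h : Approx u) {f : α → β} (hf : Primrec f) :
    Approx fun a => u (f a) := by
  obtain ⟨E, hE, h⟩ := h
  exact ⟨fun p => E (f p.1, p.2), hE.comp ((hf.comp fst).pair snd), fun a n => h _ _⟩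

/-- Limits with an explicit rate. -/
theorem Approx.lim {u : α → ℝ} {v : α × ℕ → ℝ} (hv : Approx v)
    (h : ∀ a k, |u a - v (a, k)| ≤ 1 / ((k : ℝ) + 1)) : Approx u := by
  obtain ⟨E, hE, hv⟩ := hv
  refine ⟨fun p => E ((p.1, 2 * p.2 + 1), 2 * p.2 + 1), hE.comp
    ((fst.pair (nat_double_succ.comp snd)).pair (nat_double_succ.comp snd)), fun a n => ?_⟩
  have h1 := h a (2 * n + 1)
  have h2 := hv (a, 2 * n + 1) (2 * n + 1)
  have h3 := abs_sub_le (u a) (v (a, 2 * n + 1)) (E ((a, 2 * n + 1), 2 * n + 1))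
  have h4 : 1 / (((2 * n + 1 : ℕ) : ℝ) + 1) + 1 / (((2 * n + 1 : ℕ) : ℝ) + 1) =
      1 / ((n : ℝ) + 1) := by push_cast; field_simp; ring
  linarith

theorem Approx.add {u v : α → ℝ} (hu : Approx u) (hv : Approx v) : Approx fun a => u a + v a := by
  obtain ⟨E, hE, hu⟩ := hu
  obtain ⟨E', hE', hv⟩ := hv
  have hp : Primrec fun p : α × ℕ => (p.1, 2 * p.2 + 1) := fst.pair (nat_double_succ.comp snd)
  refine ⟨fun p => E (p.1, 2 * p.2 + 1) + E' (p.1, 2 * p.2 + 1),
    rat_add.comp (hE.comp hp) (hE'.comp hp), fun a n => ?_⟩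
  have h1 := hu a (2 * n + 1)
  have h2 := hv a (2 * n + 1)
  have h4 : 1 / (((2 * n + 1 : ℕ) : ℝ) + 1) + 1 / (((2 * n + 1 : ℕ) : ℝ) + 1) =
      1 / ((n : ℝ) + 1) := by push_cast; field_simp; ring
  have h3 := abs_add_le (u a - E (a, 2 * n + 1)) (v a - E' (a, 2 * n + 1))
  push_cast [Rat.cast_add]
  rw [add_sub_add_comm]
  push_cast at h1 h2 h3 h4
  linarith

theorem Approx.bound {u : α → ℝ} (hu : Approx u) :
    ∃ b : α → ℕ, Primrec b ∧ ∀ a, |u a| ≤ b a := by
  obtain ⟨E, hE, hu⟩ := hu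
  refine ⟨fun a => (E (a, 0)).num.natAbs + 1,
    succ.comp (primrec_natAbs_num.comp (hE.comp (Primrec.id.pair (const 0)))), fun a => ?_⟩
  have h1 := hu a 0
  have h2 := abs_le_natAbs_num (E (a, 0))
  have h3 := abs_add_le (u a - E (a, 0)) (E (a, 0))
  rw [sub_add_cancel] at h3
  simp only [Nat.cast_zero, zero_add, div_one] at h1
  rw [Nat.cast_add, Nat.cast_one]
  linarith

theorem Approx.mul {u v : α → ℝ} (hu : Approx u) (hv : Approx v) : Approx fun a => u a * v a := by
  obtain ⟨b, hb, hbu⟩ := hu.bound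
  obtain ⟨b', hb', hbv⟩ := hv.bound
  obtain ⟨E, hE, hu⟩ := hu
  obtain ⟨E', hE', hv⟩ := hv
  have hp : Primrec fun p : α × ℕ => (p.1, (b p.1 + b' p.1 + 1) * (p.2 + 1)) :=
    fst.pair (nat_mul.comp (succ.comp (nat_add.comp (hb.comp fst) (hb'.comp fst))) (succ.comp snd))
  refine ⟨fun p => E (p.1, (b p.1 + b' p.1 + 1) * (p.2 + 1)) *
    E' (p.1, (b p.1 + b' p.1 + 1) * (p.2 + 1)),
    rat_mul.comp (hE.comp hp) (hE'.comp hp), fun a n => ?_⟩
  have h1 := hu a ((b a + b' a + 1) * (n + 1))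
  have h2 := hv a ((b a + b' a + 1) * (n + 1))
  have h3 := hbu a
  have h4 := hbv a
  dsimp only
  rw [Rat.cast_mul]
  set x : ℝ := ((E (a, (b a + b' a + 1) * (n + 1)) : ℚ) : ℝ)
  set y : ℝ := ((E' (a, (b a + b' a + 1) * (n + 1)) : ℚ) : ℝ)
  set ε : ℝ := 1 / ((((b a + b' a + 1) * (n + 1) : ℕ) : ℝ) + 1) with hε
  have hε0 : 0 ≤ ε := by positivity
  have hε1 : ε ≤ 1 := by
    rw [hε, div_le_one (by positivity)]; linarith [Nat.cast_nonneg (α := ℝ) ((b a + b' a + 1) * (n + 1))]
  have hε2 : ((b a : ℝ) + b' a + 1) * ε ≤ 1 / ((n : ℝ) + 1) := by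
    rw [hε, mul_one_div, div_le_div_iff₀ (by positivity) (by positivity)]
    push_cast; linarith
  have e : u a * v a - x * y = u a * (v a - y) + (u a - x) * v a - (u a - x) * (v a - y) := by ring
  rw [e]
  have h5 : |u a * (v a - y)| ≤ b a * ε := by
    rw [abs_mul]; exact mul_le_mul h3 h2 (abs_nonneg _) (Nat.cast_nonneg _)
  have h6 : |(u a - x) * v a| ≤ ε * b' a := by
    rw [abs_mul]; exact mul_le_mul h1 h4 (abs_nonneg _) hε0
  have h7 : |(u a - x) * (v a - y)| ≤ ε * 1 := by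
    rw [abs_mul]; exact mul_le_mul h1 (h2.trans hε1) (abs_nonneg _) hε0
  have h8 := abs_sub (u a * (v a - y) + (u a - x) * v a) ((u a - x) * (v a - y))
  have h9 := abs_add_le (u a * (v a - y)) ((u a - x) * v a)
  linarith

theorem Approx.neg {u : α → ℝ} (hu : Approx u) : Approx fun a => -u a :=
  ((Approx.rat (const (-1))).mul hu).of_eq fun a => by simp

theorem Approx.sub {u v : α → ℝ} (hu : Approx u) (hv : Approx v) : Approx fun a => u a - v a :=
  (hu.add hv.neg).of_eq fun a => by simp [sub_eq_add_neg]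

/-- Sums over primitive recursive lists. -/
theorem Approx.list_sum {u : α × β → ℝ} (hu : Approx u) {L : α → List β} (hL : Primrec L) :
    Approx fun a => ((L a).map fun b => u (a, b)).sum := by
  obtain ⟨E, hE, hu⟩ := hu
  have h1 : Primrec₂ fun (p : α × ℕ) (b : β) => E ((p.1, b), (L p.1).length * (p.2 + 1)) :=
    hE.comp (((fst.comp fst).pair snd).pair
      (nat_mul.comp (list_length.comp (hL.comp (fst.comp fst))) (succ.comp (snd.comp fst))))
  refine ⟨fun p => ((L p.1).map fun b => E ((p.1, b), (L p.1).length * (p.2 + 1))).sum,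
    rat_list_sum.comp (list_map (hL.comp fst) h1), fun a n => ?_⟩
  dsimp only
  have key : ∀ (l : List β) (N : ℕ), |(l.map fun b => u (a, b)).sum -
      (((l.map fun b => E ((a, b), N)).sum : ℚ) : ℝ)| ≤ l.length * (1 / ((N : ℝ) + 1)) := by
    intro l N
    induction l with
    | nil => simp
    | cons b l ih =>
      simp only [List.map_cons, List.sum_cons, List.length_cons, Rat.cast_add]
      rw [add_sub_add_comm]
      have := abs_add_le (u (a, b) - E ((a, b), N)) ((l.map fun b => u (a, b)).sum -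
        (((l.map fun b => E ((a, b), N)).sum : ℚ) : ℝ))
      have h2 := hu (a, b) N
      push_cast at this ih ⊢
      linarith
  refine (key _ _).trans ?_
  rw [mul_one_div, div_le_div_iff₀ (by positivity) (by positivity)]
  push_cast; linarith

end Crest.Agent.Lib.Comp
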